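import Vale.Agent.P090.Bdl.B1

/-! Bounded uniformly discrete spaces: an upper bound for the constant of the bounded
approximation property, and the quantitative bounded counterexamples. -/

namespace Vale.Agent.P090.H29

set_option maxSynthPendingDepth 3
set_option linter.unusedSectionVars false

open scoped NNReal

section Upper

variable {M : Type} [MetricSpace M] {o : M}

open Classical in
/-- the retraction of `M` onto `S ∪ {o}` -/
noncomputable def ret (o : M) (S : Finset M) (x : M) : M := if x ∈ S then x else o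

theorem ret_of_mem {S : Finset M} {x : M} (h : x ∈ S) : ret o S x = x := by
  unfold ret; rw [if_pos h]

theorem ret_o (S : Finset M) : ret o S o = o := by
  unfold ret; split_ifs <;> rfl

theorem ret_cases (S : Finset M) (x : M) : ret o S x = o ∨ ret o S x ∈ S := by
  unfold ret
  split_ifs with h
  · exact Or.inr h
  · exact Or.inl rfl

variable {D : ℝ}

theorem ret_lip (h1 : ∀ x y : M, x ≠ y → 1 ≤ dist x y) (hD : ∀ x y : M, dist x y ≤ D)
    (S : Finset M) (x y : M) : dist (ret o S x) (ret o S y) ≤ D * dist x y := by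
  have hD0 : 0 ≤ D := dist_nonneg.trans (hD o o)
  rcases eq_or_ne x y with rfl | h
  · simp
  · calc dist (ret o S x) (ret o S y) ≤ D := hD _ _
      _ = D * 1 := (mul_one D).symm
      _ ≤ D * dist x y := mul_le_mul_of_nonneg_left (h1 x y h) hD0

/-- composition with the retraction -/
noncomputable def comp (h1 : ∀ x y : M, x ≠ y → 1 ≤ dist x y) (hD : ∀ x y : M, dist x y ≤ D)
    (S : Finset M) : Lip0 M o →L[ℝ] Lip0 M o :=
  LinearMap.mkContinuous
    { toFun := fun f => ⟨fun x => f (ret o S x), by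
        refine ⟨by
          change f (ret o S o) = 0
          rw [ret_o]
          exact Lip0.map_base f, ?_⟩
        obtain ⟨C, hC⟩ := f.2.2
        have hD0 : 0 ≤ D := dist_nonneg.trans (hD o o)
        refine ⟨C * ⟨D, hD0⟩, LipschitzWith.of_dist_le_mul fun x y => ?_⟩
        have h2 := hC.dist_le_mul (ret o S x) (ret o S y)
        calc dist (f (ret o S x)) (f (ret o S y)) ≤ C * dist (ret o S x) (ret o S y) := h2
          _ ≤ C * (D * dist x y) :=
              mul_le_mul_of_nonneg_left (ret_lip h1 hD S x y) C.2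
          _ = (C * D) * dist x y := by ring⟩
      map_add' := fun _ _ => rfl
      map_smul' := fun _ _ => rfl } D (fun f => by
        have hD0 : 0 ≤ D := dist_nonneg.trans (hD o o)
        refine Lip0.norm_le (mul_nonneg hD0 (norm_nonneg _)) fun x y => ?_
        calc |f (ret o S x) - f (ret o S y)| ≤ ‖f‖ * dist (ret o S x) (ret o S y) :=
              Lip0.le_norm f _ _
          _ ≤ ‖f‖ * (D * dist x y) :=
              mul_le_mul_of_nonneg_left (ret_lip h1 hD S x y) (norm_nonneg _)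
          _ = D * ‖f‖ * dist x y := by ring)

theorem comp_apply (h1 : ∀ x y : M, x ≠ y → 1 ≤ dist x y) (hD : ∀ x y : M, dist x y ≤ D)
    (S : Finset M) (f : Lip0 M o) (x : M) : comp h1 hD S f x = f (ret o S x) := rfl

theorem norm_comp_le (h1 : ∀ x y : M, x ≠ y → 1 ≤ dist x y) (hD : ∀ x y : M, dist x y ≤ D)
    (S : Finset M) : ‖comp (o := o) h1 hD S‖ ≤ D :=
  LinearMap.mkContinuous_norm_le _ (dist_nonneg.trans (hD o o)) _

/-- the adjoint -/
noncomputable def adS (h1 : ∀ x y : M, x ≠ y → 1 ≤ dist x y) (hD : ∀ x y : M, dist x y ≤ D)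
    (S : Finset M) : (Lip0 M o →L[ℝ] ℝ) →L[ℝ] (Lip0 M o →L[ℝ] ℝ) :=
  LinearMap.mkContinuous
    { toFun := fun φ => φ.comp (comp h1 hD S)
      map_add' := fun _ _ => rfl
      map_smul' := fun _ _ => rfl } D (fun φ => by
        have hD0 : 0 ≤ D := dist_nonneg.trans (hD o o)
        refine ContinuousLinearMap.opNorm_le_bound _ (mul_nonneg hD0 (norm_nonneg _)) fun f => ?_
        calc ‖φ (comp h1 hD S f)‖ ≤ ‖φ‖ * ‖comp h1 hD S f‖ := φ.le_opNorm _
          _ ≤ ‖φ‖ * (D * ‖f‖) := by
              refine mul_le_mul_of_nonneg_left ?_ (norm_nonneg _)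
              exact ((comp h1 hD S).le_opNorm f).trans
                (mul_le_mul_of_nonneg_right (norm_comp_le h1 hD S) (norm_nonneg _))
          _ = D * ‖φ‖ * ‖f‖ := by ring)

theorem norm_adS_le (h1 : ∀ x y : M, x ≠ y → 1 ≤ dist x y) (hD : ∀ x y : M, dist x y ≤ D)
    (S : Finset M) (φ : Lip0 M o →L[ℝ] ℝ) : ‖adS h1 hD S φ‖ ≤ D * ‖φ‖ := by
  refine ((adS h1 hD S).le_opNorm φ).trans
    (mul_le_mul_of_nonneg_right ?_ (norm_nonneg _))
  exact LinearMap.mkContinuous_norm_le _ (dist_nonneg.trans (hD o o)) _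

theorem adS_delta (h1 : ∀ x y : M, x ≠ y → 1 ≤ dist x y) (hD : ∀ x y : M, dist x y ≤ D)
    (S : Finset M) (x : M) : adS h1 hD S (delta o x) = delta o (ret o S x) := by
  ext f
  rfl

/-- the span of the evaluations at the points of `S` -/
noncomputable def fin (o : M) (S : Finset M) : Submodule ℝ (Lip0 M o →L[ℝ] ℝ) :=
  Submodule.span ℝ (delta o '' (S : Set M))

instance (S : Finset M) : FiniteDimensional ℝ (fin o S) :=
  FiniteDimensional.span_of_finite ℝ (S.finite_toSet.image _)

theorem delta_ret_mem (S : Finset M) (x : M) : delta o (ret o S x) ∈ fin o S := by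
  rcases ret_cases (o := o) S x with h | h
  · rw [h, delta_base]
    exact Submodule.zero_mem _
  · exact Submodule.subset_span ⟨_, h, rfl⟩

theorem adS_mem (h1 : ∀ x y : M, x ≠ y → 1 ≤ dist x y) (hD : ∀ x y : M, dist x y ≤ D)
    (S : Finset M) {φ : Lip0 M o →L[ℝ] ℝ} (hφ : φ ∈ LipSpan M o) :
    adS h1 hD S φ ∈ fin o S := by
  have hcl : IsClosed (fin o S : Set (Lip0 M o →L[ℝ] ℝ)) := (fin o S).closed_of_finiteDimensional
  have h2 : LipSpan M o ≤ (fin o S).comap
      ((adS h1 hD S : (Lip0 M o →L[ℝ] ℝ) →L[ℝ] (Lip0 M o →L[ℝ] ℝ)) :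
        (Lip0 M o →L[ℝ] ℝ) →ₗ[ℝ] (Lip0 M o →L[ℝ] ℝ)) := by
    refine Submodule.topologicalClosure_minimal _ ?_ (hcl.preimage (adS h1 hD S).continuous)
    rw [Submodule.span_le]
    rintro _ ⟨x, rfl⟩
    show adS h1 hD S (delta o x) ∈ fin o S
    rw [adS_delta]
    exact delta_ret_mem S x
  exact h2 hφ

theorem fin_le (S : Finset M) : fin o S ≤ LipSpan M o := by
  refine le_trans (Submodule.span_mono ?_) (Submodule.le_topologicalClosure _)
  rintro _ ⟨x, -, rfl⟩
  exact ⟨x, rfl⟩

/-- finitely supported elements are fixed -/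
theorem exists_fix (h1 : ∀ x y : M, x ≠ y → 1 ≤ dist x y) (hD : ∀ x y : M, dist x y ≤ D)
    {φ : Lip0 M o →L[ℝ] ℝ} (hφ : φ ∈ Submodule.span ℝ (Set.range (delta o))) :
    ∃ S : Finset M, ∀ S' : Finset M, S ⊆ S' → adS h1 hD S' φ = φ := by
  classical
  induction hφ using Submodule.span_induction with
  | mem φ h =>
    obtain ⟨x, rfl⟩ := h
    refine ⟨{x}, fun S' hS => ?_⟩
    rw [adS_delta, ret_of_mem (hS (Finset.mem_singleton_self x))]
  | zero => exact ⟨∅, fun S' _ => map_zero _⟩
  | add φ ψ _ _ h2 h3 =>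
    obtain ⟨S, hS⟩ := h2
    obtain ⟨T, hT⟩ := h3
    refine ⟨S ∪ T, fun S' h => ?_⟩
    rw [map_add, hS S' (Finset.subset_union_left.trans h), hT S' (Finset.subset_union_right.trans h)]
  | smul c φ _ h2 =>
    obtain ⟨S, hS⟩ := h2
    exact ⟨S, fun S' h => by rw [map_smul, hS S' h]⟩

/-- the finite rank operator on the free space -/
noncomputable def TT (h1 : ∀ x y : M, x ≠ y → 1 ≤ dist x y) (hD : ∀ x y : M, dist x y ≤ D)
    (S : Finset M) : LipSpan M o →L[ℝ] LipSpan M o :=
  ((adS h1 hD S).comp (LipSpan M o).subtypeL).codRestrict (LipSpan M o)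
    (fun φ => fin_le S (adS_mem h1 hD S φ.2))

theorem TT_coe (h1 : ∀ x y : M, x ≠ y → 1 ≤ dist x y) (hD : ∀ x y : M, dist x y ≤ D)
    (S : Finset M) (φ : LipSpan M o) : (TT h1 hD S φ : Lip0 M o →L[ℝ] ℝ) = adS h1 hD S φ.1 := rfl

theorem norm_TT_apply (h1 : ∀ x y : M, x ≠ y → 1 ≤ dist x y) (hD : ∀ x y : M, dist x y ≤ D)
    (S : Finset M) (φ : LipSpan M o) : ‖TT h1 hD S φ‖ ≤ D * ‖φ‖ :=
  norm_adS_le h1 hD S φ.1

theorem finite_range (h1 : ∀ x y : M, x ≠ y → 1 ≤ dist x y) (hD : ∀ x y : M, dist x y ≤ D)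
    (S : Finset M) : FiniteDimensional ℝ
      (LinearMap.range (TT (o := o) h1 hD S : LipSpan M o →ₗ[ℝ] LipSpan M o)) := by
  have h2 : LinearMap.range (TT (o := o) h1 hD S : LipSpan M o →ₗ[ℝ] LipSpan M o) ≤
      (fin o S).comap (LipSpan M o).subtype := by
    rintro _ ⟨φ, rfl⟩
    exact adS_mem h1 hD S φ.2
  have h3 : FiniteDimensional ℝ ((fin o S).comap (LipSpan M o).subtype) := by
    refine Module.Finite.of_injective
      (((LipSpan M o).subtype.restrict (p := (fin o S).comap (LipSpan M o).subtype) (q := fin o S)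
        (fun φ hφ => hφ))) ?_
    intro a b h
    have h4 := congrArg (fun z : fin o S => (z : Lip0 M o →L[ℝ] ℝ)) h
    exact Subtype.ext (Subtype.ext h4)
  exact Submodule.finiteDimensional_of_le h2

/-- **Upper bound.**  If all distances between distinct points are in `[1, D]` then `F(M)` has the
`D`-bounded approximation property. -/
theorem hasBAPWith_of_bounded (h1 : ∀ x y : M, x ≠ y → 1 ≤ dist x y)
    (hD : ∀ x y : M, dist x y ≤ D) (o : M) : HasBAPWith D (LipFree M o) := by
  classical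
  rw [hasBAPWith_lipFree_iff]
  intro K hK ε hε
  have hD0 : 0 ≤ D := dist_nonneg.trans (hD o o)
  set η : ℝ := ε / (2 * (D + 2)) with hη
  have hη0 : 0 < η := by positivity
  obtain ⟨t, -, ht, hcov⟩ := hK.finite_cover_balls hη0
  -- approximation by finitely supported elements
  have hap : ∀ u : LipSpan M o, ∃ v : LipSpan M o, dist u v < η ∧
      ∃ S : Finset M, ∀ S' : Finset M, S ⊆ S' → TT h1 hD S' v = v := by
    intro u
    have hu : (u : Lip0 M o →L[ℝ] ℝ) ∈
        closure (Submodule.span ℝ (Set.range (delta o)) : Set (Lip0 M o →L[ℝ] ℝ)) := u.2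
    obtain ⟨v, hv, hd⟩ := Metric.mem_closure_iff.1 hu η hη0
    obtain ⟨S, hS⟩ := exists_fix h1 hD hv
    refine ⟨⟨v, Submodule.le_topologicalClosure _ hv⟩, hd, S, fun S' h => ?_⟩
    exact Subtype.ext (hS S' h)
  choose v hv S hS using hap
  set S' : Finset M := ht.toFinset.biUnion S with hS'
  refine ⟨TT h1 hD S', finite_range h1 hD S', ?_, fun u hu => ?_⟩
  · exact ContinuousLinearMap.opNorm_le_bound _ hD0 (norm_TT_apply h1 hD S')
  · obtain ⟨x, hx, hux⟩ : ∃ x ∈ t, u ∈ Metric.ball x η := by simpa using hcov hu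
    have hfix : TT h1 hD S' (v x) = v x := by
      refine hS x S' ?_
      intro y hy
      exact Finset.mem_biUnion.2 ⟨x, ht.mem_toFinset.2 hx, hy⟩
    have hd : ‖u - v x‖ < 2 * η := by
      rw [← dist_eq_norm]
      calc dist u (v x) ≤ dist u x + dist x (v x) := dist_triangle _ _ _
        _ < η + η := add_lt_add hux (hv x)
        _ = 2 * η := by ring
    have e1 : TT h1 hD S' u - u = TT h1 hD S' (u - v x) - (u - v x) := by
      rw [map_sub, hfix]; abel
    rw [e1]
    calc ‖TT h1 hD S' (u - v x) - (u - v x)‖ ≤ ‖TT h1 hD S' (u - v x)‖ + ‖u - v x‖ :=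
          norm_sub_le _ _
      _ ≤ D * ‖u - v x‖ + ‖u - v x‖ := by
          have := norm_TT_apply h1 hD S' (u - v x)
          linarith
      _ = (D + 1) * ‖u - v x‖ := by ring
      _ ≤ (D + 1) * (2 * η) := mul_le_mul_of_nonneg_left hd.le (by linarith)
      _ < ε := by
          rw [hη]
          have h5 : 0 < D + 2 := by linarith
          rw [show (D + 1) * (2 * (ε / (2 * (D + 2)))) = ε * ((D + 1) / (D + 2)) by
            field_simp]
          have h6 : (D + 1) / (D + 2) < 1 := by rw [div_lt_one h5]; linarith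
          nlinarith

end Upper

/-- **Lower bound.**  For every `lam ≥ 1` there is a countable space with integer distances at most
`(52 lam + 65)²` which fails the `lam`-bounded approximation property. -/
theorem exists_bounded' (lam : ℝ) (hlam : 1 ≤ lam) :
    ∃ (M : Type) (_ : MetricSpace M), Nonempty M ∧ Countable M ∧
      (∀ x y : M, ∃ n : ℕ, dist x y = n) ∧ (∀ x y : M, dist x y ≤ (52 * lam + 65) ^ 2) ∧
      ∀ o : M, ¬ HasBAPWith lam (LipFree M o) := by
  have hx : 0 ≤ 52 * lam + 64 := by linarith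
  obtain ⟨k, hk, hk2⟩ : ∃ k : ℕ, 52 * lam + 64 ≤ (k : ℝ) + 1 ∧ (k : ℝ) + 1 ≤ 52 * lam + 65 := by
    have h0 : 1 ≤ ⌈52 * lam + 64⌉₊ := Nat.one_le_ceil_iff.2 (by linarith)
    obtain ⟨k, hk⟩ : ∃ k, ⌈52 * lam + 64⌉₊ = k + 1 := ⟨⌈52 * lam + 64⌉₊ - 1, by omega⟩
    have h1 := Nat.le_ceil (52 * lam + 64)
    have h2 := (Nat.ceil_lt_add_one hx).le
    rw [hk] at h1 h2
    push_cast at h1 h2
    exact ⟨k, h1, by linarith⟩
  refine ⟨MG fun _ => k, inferInstance, ⟨Glue.base fun _ => blk k⟩, inferInstance,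
    fun x y => ⟨_, glue_dist _ x y⟩, fun p q => ?_, fun o h => ?_⟩
  · rw [glue_dist]
    have h1 : gd (fun _ => blk k) p q ≤ RR k := gd_le_of_const (blk k) p q
    have h2 : ((gd (fun _ => blk k) p q : ℕ) : ℝ) ≤ (RR k : ℝ) := by exact_mod_cast h1
    refine h2.trans ?_
    unfold RR
    push_cast
    have : (0 : ℝ) ≤ (k : ℝ) + 1 := by positivity
    exact pow_le_pow_left₀ this hk2 2
  · exact no_bapWith (fun _ => k) 0 lam hlam hk
      (hasBAPWith_base (Glue.base fun _ => blk k) o h)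

end Vale.Agent.P090.H29
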